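import Vale.Agent.P011Z.Cl.Dat
import Vale.Agent.P011Z.Cl.Pf
import Vale.Agent.P011Z.Cl.Apx
import Vale.Agent.P011Z.Cl.HM

/-!
Classification of the forms: hermitian forms of rank three.
-/

open Matrix Module

noncomputable section

namespace Vale.Agent.P011Z.Cl.D4ex

open Pfx

variable {G : Subgroup Gq} {d : Om} {H : Matrix (Fin 3) (Fin 3) Om} {s γ : Gq} {ι : Om →+* ℂ}

theorem re_mul (hγ : Cj ι γ) {x : Om} (hx : γ x = x) (y : Om) :
    (ι (x * y)).re = (ι x).re * (ι y).re := by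
  rw [map_mul, Complex.mul_re, hγ.real.1 hx, zero_mul, sub_zero]

theorem re_ne (hγ : Cj ι γ) {x : Om} (hx : γ x = x) (h0 : x ≠ 0) : (ι x).re ≠ 0 := fun h =>
  h0 (ι.injective (by rw [map_zero]; exact Complex.ext h (hγ.real.1 hx)))

theorem re_div (hγ : Cj ι γ) (x : Om) {y : Om} (hy : γ y = y) :
    (ι (x / y)).re = (ι x).re / (ι y).re := by
  by_cases h : y = 0
  · simp [h]
  · rw [eq_div_iff (re_ne hγ hy h), mul_comm, ← re_mul hγ hy, mul_div_cancel₀ _ h]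

theorem neg_d (hγ : Cj ι γ) (h1 : γ (d ^ 2) = d ^ 2) (h : (ι (d ^ 2)).re < 0) : γ d = -d := by
  refine (eq_or_neg h1).resolve_left fun h2 => ?_
  rw [pow_two, re_mul hγ h2] at h
  exact absurd h (not_lt.2 (mul_self_nonneg _))

theorem neg_ne (h0 : d ≠ 0) : -d ≠ d := fun h => h0 (by linear_combination (-2⁻¹ : Om) * h)

/-- The stabilizer of `d`. -/
def kd (G : Subgroup Gq) (d : Om) : Subgroup Gq := G ⊓ MulAction.stabilizer Gq d

theorem mem_kd {σ : Gq} : σ ∈ kd G d ↔ σ ∈ G ∧ σ d = d := Iff.rfl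

theorem kd_opn (hG : Opn G) : Opn (kd G d) := hG.inf (opn_stab d)

theorem kd_ix (hd : Fx G (d ^ 2)) : Ix2 G (kd G d) := fun σ hσ τ hτ => by
  have h := ix2_stab hd σ hσ τ hτ
  simp only [kd, Subgroup.mem_inf, hσ, hτ, mul_mem hσ hτ, true_and]
  exact h

theorem cnj (hs : s ∈ G) (h2 : s d = -d) {σ : Gq} (hσ : σ ∈ G) (h : σ d = d) :
    s⁻¹ * (σ * s) ∈ G ∧ (s⁻¹ * (σ * s)) d = d := by
  refine ⟨mul_mem (inv_mem hs) (mul_mem hσ hs), ?_⟩
  change s⁻¹ (σ (s d)) = d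
  rw [h2, map_neg, h, ← h2, Cubx.inv_ap]

theorem dv (hs : s ∈ G) (h2 : s d = -d) {σ : Gq} (hσ : σ ∈ G) (h : σ d = -d) :
    s⁻¹ * σ ∈ G ∧ (s⁻¹ * σ) d = d := by
  refine ⟨mul_mem (inv_mem hs) hσ, ?_⟩
  change s⁻¹ (σ d) = d
  rw [h, ← h2, Cubx.inv_ap]

theorem sq_fix (h2 : s d = -d) {σ : Gq} (h : σ d = -d) : (σ * s) d = d := by
  change σ (s d) = d
  rw [h2, map_neg, h, neg_neg]

/-- Weak approximation with a nonzero value. -/
theorem apxK (hG : Opn G) (h0 : d ≠ 0) (hd : Fx G (d ^ 2)) (hs : s ∈ G) (h2 : s d = -d)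
    {f : Gq → (Fin 3 → Om) → Fin 3 → Om} (ht : TA (kd G d) f)
    {p : (Fin 3 → Om) × (Fin 3 → Om) → Om} (hp : Pol p)
    (hk : ∀ x, Fv (kd G d) f x → Fx G (p (x, s ∘ x)))
    (h1 : ∃ x, Fv (kd G d) f x ∧ p (x, s ∘ x) ≠ 0)
    (hR : ∀ ι γ, Cj ι γ → γ ∈ G → (ι (d ^ 2)).re < 0 →
      ∃ y, 0 < (ι (p (y, s ∘ f (s⁻¹ * γ) y))).re) :
    ∃ x, Fv (kd G d) f x ∧ p (x, s ∘ x) ≠ 0 ∧
      ∀ ι γ, Cj ι γ → γ ∈ G → (ι (d ^ 2)).re < 0 → 0 < (ι (p (x, s ∘ x))).re := by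
  by_cases h3 : ∃ ι γ, Cj ι γ ∧ γ ∈ G ∧ (ι (d ^ 2)).re < 0
  · obtain ⟨x, hx, h4⟩ := apx inf_le_left (kd_ix hd) ht hs
      (fun h4 => neg_ne h0 (h2.symm.trans h4.2)) ((ta_pi hG (Fin 3)).semi s hs) hp hk
      {ι | ∃ γ, Cj ι γ ∧ γ ∈ G ∧ (ι (d ^ 2)).re < 0} (by
        rintro ι ⟨γ, k1, k2, k3⟩
        exact ⟨γ, k1, k2, fun k4 => neg_ne h0 ((neg_d k1 (hd γ k2) k3).symm.trans k4.2),
          hR ι γ k1 k2 k3⟩)
    obtain ⟨ι, h3⟩ := h3
    refine ⟨x, hx, fun h5 => ?_, fun ι γ k1 k2 k3 => h4 ι ⟨γ, k1, k2, k3⟩⟩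
    have h6 := h4 ι h3
    rw [h5, map_zero, Complex.zero_re] at h6
    exact lt_irrefl _ h6
  · obtain ⟨x, hx, h4⟩ := h1
    exact ⟨x, hx, h4, fun ι γ k1 k2 k3 => absurd ⟨ι, γ, k1, k2, k3⟩ h3⟩

theorem pol_dot {V : Type} [AddCommGroup V] [Module Om V] (H : Matrix (Fin 3) (Fin 3) Om)
    {g k : V → Fin 3 → Om} (hg : PolM g) (hk : PolM k) : Pol fun x => g x ⬝ᵥ (H *ᵥ k x) :=
  (polM_iff.1 (PolM.bil (Matrix.toLinearMap₂' Om H) hg hk)).congr fun _ =>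
    (Matrix.toLinearMap₂'_apply' _ _ _).symm

theorem pol_fst : PolM fun y : (Fin 3 → Om) × (Fin 3 → Om) => y.1 :=
  PolM.lin (LinearMap.fst Om (Fin 3 → Om) (Fin 3 → Om))

theorem pol_snd : PolM fun y : (Fin 3 → Om) × (Fin 3 → Om) => y.2 :=
  PolM.lin (LinearMap.snd Om (Fin 3 → Om) (Fin 3 → Om))

/-- Vectors over the quadratic extension. -/
def Kf (G : Subgroup Gq) (d : Om) (u : Fin 3 → Om) : Prop := ∀ σ ∈ G, σ d = d → σ ∘ u = u

/-- The form. -/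
def hf (H : Matrix (Fin 3) (Fin 3) Om) (s : Gq) (u v : Fin 3 → Om) : Om := u ⬝ᵥ (H *ᵥ (s ∘ v))

theorem kf_iff {u : Fin 3 → Om} : Fv (kd G d) (fun σ u => σ ∘ u) u ↔ Kf G d u :=
  ⟨fun h σ h1 h2 => h σ ⟨h1, h2⟩, fun h σ h1 => h σ h1.1 h1.2⟩

theorem Kf.conj (hs : s ∈ G) (h2 : s d = -d) {u : Fin 3 → Om} (hu : Kf G d u) :
    Kf G d (s ∘ u) := fun σ hσ h => by
  have h1 := congrArg (fun v => s ∘ v) (hu _ (cnj hs h2 hσ h).1 (cnj hs h2 hσ h).2)
  simp only [cmp_cmp, mul_inv_cancel_left] at h1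
  exact h1

theorem Kf.eq (hs : s ∈ G) (h2 : s d = -d) {u : Fin 3 → Om} (hu : Kf G d u) {σ : Gq}
    (hσ : σ ∈ G) (h : σ d = -d) : σ ∘ u = s ∘ u := by
  have h1 := congrArg (fun v => s ∘ v) (hu _ (dv hs h2 hσ h).1 (dv hs h2 hσ h).2)
  simp only [cmp_cmp, mul_inv_cancel_left] at h1
  exact h1

theorem Kf.mulVec (hH : ∀ σ ∈ G, σ d = d → H.map σ = H) {u : Fin 3 → Om} (hu : Kf G d u) :
    Kf G d (H *ᵥ u) := fun σ hσ h => by rw [cmp_mulVec, hH σ hσ h, hu σ hσ h]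

theorem Kf.cross {u v : Fin 3 → Om} (hu : Kf G d u) (hv : Kf G d v) :
    Kf G d (crossProduct u v) := fun σ hσ h => by
  have h1 : ∀ i, σ (u i) = u i := congrFun (hu σ hσ h)
  have h2 : ∀ i, σ (v i) = v i := congrFun (hv σ hσ h)
  funext i
  fin_cases i <;> simp [cross_apply, h1, h2]

theorem hf_fix (hs : s ∈ G) (h2 : s d = -d) (hH : ∀ σ ∈ G, σ d = d → H.map σ = H)
    {u v : Fin 3 → Om} (hu : Kf G d u) (hv : Kf G d v) {σ : Gq} (hσ : σ ∈ G) (h : σ d = d) :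
    σ (hf H s u v) = hf H s u v := by
  rw [hf, cmp_dot, hu σ hσ h, (hv.conj hs h2).mulVec hH σ hσ h]

theorem hf_conj (hs : s ∈ G) (h2 : s d = -d) (hH : ∀ σ ∈ G, σ d = -d → H.map σ = Hᵀ)
    {u v : Fin 3 → Om} (hu : Kf G d u) (hv : Kf G d v) {σ : Gq} (hσ : σ ∈ G) (h : σ d = -d) :
    σ (hf H s u v) = hf H s v u := by
  rw [hf, hf, cmp_dot, cmp_mulVec, hH σ hσ h, cmp_cmp, hv _ (mul_mem hσ hs) (sq_fix h2 h),
    hu.eq hs h2 hσ h, mulVec_transpose, dotProduct_comm, dotProduct_mulVec]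

theorem hf_fx (hd : Fx G (d ^ 2)) (hs : s ∈ G) (h2 : s d = -d)
    (hH : ∀ σ ∈ G, σ d = d → H.map σ = H) (hH' : ∀ σ ∈ G, σ d = -d → H.map σ = Hᵀ)
    {u : Fin 3 → Om} (hu : Kf G d u) : Fx G (hf H s u u) := fun σ hσ =>
  (eq_or_neg (hd σ hσ)).elim (hf_fix hs h2 hH hu hu hσ) (hf_conj hs h2 hH' hu hu hσ)

theorem exists_u (hG : Opn G) (h0 : d ≠ 0) (hs : s ∈ G) (h2 : s d = -d) (hH : H ≠ 0) :
    ∃ u, Kf G d u ∧ hf H s u u ≠ 0 := by
  obtain ⟨u, hu, h1⟩ := den2' (ta_pi (kd_opn (d := d) hG) (Fin 3))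
    (fun h4 => neg_ne h0 (h2.symm.trans h4.2)) ((ta_pi hG (Fin 3)).semi s hs)
    (pol_dot H pol_fst pol_snd) (by
      by_contra h1
      push Not at h1
      exact hH (ext_dot fun u v => by rw [h1 (u, v), zero_mulVec, dotProduct_zero]))
  exact ⟨u, kf_iff.1 hu, h1⟩

theorem gram (U : Fin 3 → Fin 3 → Om) (i j : Fin 3) :
    ((of U)ᵀᵀ * H * (of U)ᵀ.map s) i j = hf H s (U i) (U j) := by
  simp only [hf, mul_apply, dotProduct, mulVec, transpose_apply, of_apply, map_apply,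
    Fin.sum_univ_three, Function.comp_apply]
  ring

/-- An anisotropic vector is part of an orthogonal basis of determinant one. -/
theorem ortho (hG : Opn G) (h0 : d ≠ 0) (hs : s ∈ G) (h2 : s d = -d)
    (hH : ∀ σ ∈ G, σ d = d → H.map σ = H) (hH' : ∀ σ ∈ G, σ d = -d → H.map σ = Hᵀ)
    (hD : H.det ≠ 0) {u : Fin 3 → Om} (hu : Kf G d u) (ha : hf H s u u ≠ 0) :
    ∃ (R : Matrix (Fin 3) (Fin 3) Om) (g : Fin 3 → Om), (∀ σ ∈ G, σ d = d → R.map σ = R) ∧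
      R.det = 1 ∧ Rᵀ * H * R.map s = diagonal g ∧ g 2 = hf H s u u := by
  obtain ⟨v, hv, h1⟩ := den2' (ta_pi (kd_opn (d := d) hG) (Fin 3))
    (fun h4 => neg_ne h0 (h2.symm.trans h4.2)) ((ta_pi hG (Fin 3)).semi s hs)
    (p := fun y => y.1 ⬝ᵥ (H *ᵥ y.2) * hf H s u u - hf H s y.1 u * (u ⬝ᵥ (H *ᵥ y.2)))
    (((pol_dot H pol_fst pol_snd).mul (Pol.const _)).sub
      ((pol_dot H pol_fst (PolM.const _)).mul (pol_dot H (PolM.const _) pol_snd))) (by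
      by_contra h1
      push Not at h1
      have h3 : hf H s u u • H = vecMulVec (H *ᵥ (s ∘ u)) (u ᵥ* H) := ext_dot fun x y => by
        rw [smul_mulVec, dotProduct_smul, vecMulVec_mulVec, op_smul_eq_smul, dotProduct_smul,
          ← dotProduct_mulVec, smul_eq_mul, smul_eq_mul]
        change _ = _ * hf H s x u
        linear_combination h1 (x, y)
      have h4 := congrArg det h3
      rw [det_smul, det_vecMulVec] at h4
      exact mul_ne_zero (pow_ne_zero _ ha) hD h4)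
  replace hv := kf_iff.1 hv
  change hf H s v v * hf H s u u - hf H s v u * hf H s u v ≠ 0 at h1
  have c1 := hf_conj hs h2 hH' hu hu hs h2
  have c2 := hf_conj hs h2 hH' hv hu hs h2
  obtain ⟨w, hw⟩ : ∃ w, w = hf H s u u • v + -hf H s v u • u := ⟨_, rfl⟩
  have w1 : Kf G d w := fun σ hσ h => by
    rw [hw, cmp_add, cmp_smul, cmp_smul, map_neg, hu σ hσ h, hv σ hσ h,
      hf_fix hs h2 hH hu hu hσ h, hf_fix hs h2 hH hv hu hσ h]
  have w2 : hf H s w u = 0 := by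
    rw [hw, hf, add_dotProduct, smul_dotProduct, smul_dotProduct, smul_eq_mul, smul_eq_mul]
    change _ * hf H s v u + _ * hf H s u u = 0
    ring
  have w3 : hf H s u w = 0 := by rw [← hf_conj hs h2 hH' w1 hu hs h2, w2, map_zero]
  have w4 : hf H s w w ≠ 0 := by
    have w4 : hf H s w w =
        hf H s u u * (hf H s v v * hf H s u u - hf H s v u * hf H s u v) := by
      rw [hw, hf, cmp_add, cmp_smul, cmp_smul, map_neg, c1, c2, dot_comb]
      change _ * hf H s v v + _ * hf H s v u + _ * hf H s u v + _ * hf H s u u = _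
      ring
    rw [w4]
    exact mul_ne_zero ha h1
  obtain ⟨x, hx⟩ : ∃ x, x = (hf H s w w * hf H s u u)⁻¹ •
    crossProduct (H *ᵥ (s ∘ w)) (H *ᵥ (s ∘ u)) := ⟨_, rfl⟩
  have x1 : Kf G d x := fun σ hσ h => by
    rw [hx, cmp_smul, map_inv₀, map_mul, hf_fix hs h2 hH hu hu hσ h, hf_fix hs h2 hH w1 w1 hσ h,
      ((w1.conj hs h2).mulVec hH).cross ((hu.conj hs h2).mulVec hH) σ hσ h]
  have x2 : hf H s x w = 0 := by
    rw [hx, hf, smul_dotProduct, dotProduct_comm, dot_self_cross, smul_zero]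
  have x3 : hf H s x u = 0 := by
    rw [hx, hf, smul_dotProduct, dotProduct_comm, dot_cross_self, smul_zero]
  have x4 : hf H s w x = 0 := by rw [← hf_conj hs h2 hH' x1 w1 hs h2, x2, map_zero]
  have x5 : hf H s u x = 0 := by rw [← hf_conj hs h2 hH' x1 hu hs h2, x3, map_zero]
  refine ⟨(of ![x, w, u])ᵀ, ![hf H s x x, hf H s w w, hf H s u u], fun σ hσ h => ?_, ?_, ?_, rfl⟩
  · ext i j
    fin_cases j
    · exact congrFun (x1 σ hσ h) i
    · exact congrFun (w1 σ hσ h) i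
    · exact congrFun (hu σ hσ h) i
  · rw [det_transpose]
    refine (triple_product_eq_det x w u).symm.trans ?_
    rw [hx, smul_dotProduct, cross_dot_cross, dotProduct_comm _ w, dotProduct_comm _ u,
      dotProduct_comm _ u, dotProduct_comm _ w]
    change _ * (hf H s w w * hf H s u u - hf H s u w * hf H s w u) = 1
    rw [w2, mul_zero, sub_zero, inv_mul_cancel₀ (mul_ne_zero w4 ha)]
  · ext i j
    rw [gram]
    fin_cases i <;> fin_cases j <;> simp [x2, x3, x4, x5, w2, w3]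

/-- Indefinite forms are isotropic. -/
theorem iso (hG : Opn G) (h0 : d ≠ 0) (hd : Fx G (d ^ 2)) (hs : s ∈ G) (h2 : s d = -d)
    {g : Fin 3 → Om} (hg : ∀ i, Fx G (g i))
    (hR : ∀ ι γ, Cj ι γ → γ ∈ G → (ι (d ^ 2)).re < 0 → 0 < (ι (g 0)).re ∧ (ι (g 2)).re < 0) :
    ∃ a, a ≠ 0 ∧ Kf G d a ∧ hf (diagonal g) s a a = 0 := by
  have := hG.nf
  let b : Fin 3 → IntermediateField.fixedField G := fun i => ⟨g i, mem_fix.2 (hg i)⟩
  let e : IntermediateField.fixedField G := ⟨d ^ 2, mem_fix.2 hd⟩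
  obtain ⟨x, hx, h1⟩ := meyer (n := 6) (by norm_num)
    ![b 0, b 1, b 2, -(e * b 0), -(e * b 1), -(e * b 2)] fun φ => by
      obtain ⟨ι, γ, k1, k2, k3⟩ := exists_iota hG φ
      have k4 : ∀ y : IntermediateField.fixedField G, (ι y).re = φ y := fun y => by
        rw [k3, Complex.ofReal_re]
      rcases lt_or_ge (φ e) 0 with k5 | k5
      · obtain ⟨k6, k7⟩ := hR ι γ k1 k2 ((k4 e).trans_lt k5)
        exact ⟨fun k8 => absurd (k8 2) (not_lt.2 ((k4 (b 2)).symm.trans_lt k7).le),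
          fun k8 => absurd (k8 0) (not_lt.2 (k6.trans_eq (k4 (b 0))).le)⟩
      · refine ⟨fun k8 => ?_, fun k8 => ?_⟩
        · have k9 : 0 < φ (b 0) := k8 0
          have k10 : 0 < φ (-(e * b 0)) := k8 3
          rw [map_neg, map_mul] at k10
          nlinarith
        · have k9 : φ (b 0) < 0 := k8 0
          have k10 : φ (-(e * b 0)) < 0 := k8 3
          rw [map_neg, map_mul] at k10
          nlinarith
  have h3 : ∀ i, ∀ σ ∈ G, σ (x i) = x i := fun i => mem_fix.1 (x i).2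
  refine ⟨![x 0 + d * x 3, x 1 + d * x 4, x 2 + d * x 5], fun h4 => hx ?_, fun σ hσ h => ?_, ?_⟩
  · have h5 : ∀ i j, (x i : Om) + d * x j = 0 → x i = 0 ∧ x j = 0 := fun i j h5 => by
      have h6 := congrArg s h5
      rw [map_add, map_mul, h2, h3 i s hs, h3 j s hs, map_zero] at h6
      refine ⟨Subtype.ext ?_, Subtype.ext (mul_left_cancel₀ h0 ?_)⟩
      · change (x i : Om) = 0
        linear_combination (2⁻¹ : Om) * h5 + (2⁻¹ : Om) * h6
      · change d * (x j : Om) = d * 0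
        linear_combination (2⁻¹ : Om) * h5 - (2⁻¹ : Om) * h6
    have h6 := h5 0 3 (congrFun h4 0)
    have h7 := h5 1 4 (congrFun h4 1)
    have h8 := h5 2 5 (congrFun h4 2)
    funext i
    fin_cases i
    exacts [h6.1, h7.1, h8.1, h6.2, h7.2, h8.2]
  · funext i
    fin_cases i <;> simp [h, h3 _ σ hσ]
  · have h4 := congrArg Subtype.val h1
    simp only [Fin.sum_univ_six] at h4
    have h5 : g 0 * x 0 ^ 2 + g 1 * x 1 ^ 2 + g 2 * x 2 ^ 2 + -(d ^ 2 * g 0) * x 3 ^ 2 +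
      -(d ^ 2 * g 1) * x 4 ^ 2 + -(d ^ 2 * g 2) * x 5 ^ 2 = 0 := h4
    simp only [hf, dotProduct, mulVec_diagonal, Fin.sum_univ_three, Function.comp_apply,
      cons_val_zero, cons_val_one, cons_val_two, Nat.succ_eq_add_one, Nat.reduceAdd, tail_cons,
      head_cons, map_add, map_mul, h2, h3 _ s hs]
    linear_combination h5

end Vale.Agent.P011Z.Cl.D4ex

end
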